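import Vale.Agent.P273SQ.St
import Vale.Agent.P273SZ.Final

/-!
# P273S: the bridge to the short form of the statement
-/

noncomputable section

namespace Vale.Agent.P273SQ

open Set Sum Filter Topology Vale.Agent.P273 H183 H837 P273SD

variable {L V E : Type} {m : ℕ}

theorem cont_cls (C : Fam L m) (st : C.IsStable) : Continuous (cls C st) :=
  continuous_iSup_rng (i := m) (continuous_iSup_rng (i := C) (continuous_iSup_rng (i := st)
    continuous_coinduced_rng))

/-- the two forms of the moduli space -/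
def hm (L : Type) : P273SZ.Coarse L ≃ₜ Coarse L where
  toFun := Quot.map (fun x => ⟨x.1.1, x.1.2.1, x.1.2.2, x.2⟩) fun _ _ h => h
  invFun := Quot.map (fun x => ⟨⟨x.m, x.C, x.st⟩, x.b⟩) fun _ _ h => h
  left_inv := by rintro ⟨x⟩; rfl
  right_inv := by rintro ⟨x⟩; rfl
  continuous_toFun := continuous_coinduced_dom.2
    (continuous_sigma fun i => cont_cls i.2.1 i.2.2)
  continuous_invFun := continuous_iSup_dom.2 fun m => continuous_iSup_dom.2 fun C =>
    continuous_iSup_dom.2 fun st => continuous_coinduced_dom.2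
      (continuous_quot_mk.comp (continuous_sigmaMk (σ := fun x : Σ m, {C : Fam L m // C.IsStable} =>
        x.2.1.B) (i := ⟨m, C, st⟩)))

variable {h : (E × Bool) ⊕ L → V}

theorem glu_iff (c : Coord h m) (ξ : C(P273SZ.N h, P273SZ.Coarse L)) :
    IsGluing c ((hm L : C(_, _)).comp ξ) ↔ P273SZ.IsGluing c ξ := by
  refine and_congr (forall_congr' fun x => ⟨?_, ?_⟩) (exists₂_congr fun C st => and_congr_right
    fun _ => forall₃_congr fun b x _ => (hm L).injective.eq_iff (a := ξ x) (b := P273SZ.cls C st b))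
  · rintro ⟨k, C, st, s, h1, h2⟩
    exact ⟨fun y => ⟨⟨k, C, st⟩, s y⟩, (continuous_sigmaMk (σ := fun x : Σ m, {C : Fam L m //
      C.IsStable} => x.2.1.B) (i := ⟨k, C, st⟩)).continuousAt.comp h1,
      h2.mono fun y hy => (hm L).injective hy⟩
  · rintro ⟨s, h1, h2⟩
    have e := IsOpenEmbedding.sigmaMk (σ := fun x : Σ m, {C : Fam L m // C.IsStable} => x.2.1.B)
      (i := (s x).1)
    have : Nonempty (s x).1.2.1.B := ⟨(s x).2⟩
    obtain ⟨r, h3⟩ : ∃ r : P273SZ.N h → (s x).1.2.1.B, ∀ᶠ y in 𝓝 x,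
        (⟨(s x).1, r y⟩ : P273SZ.Pt L) = s y :=
      ⟨_, (h1.eventually (e.isOpen_range.mem_nhds ⟨(s x).2, rfl⟩)).mono fun y hy =>
        Function.invFun_eq hy⟩
    refine ⟨_, (s x).1.2.1, (s x).1.2.2, r,
      e.isInducing.continuousAt_iff.2 (h1.congr (h3.mono fun y hy => hy.symm)), ?_⟩
    filter_upwards [h2, h3] with y a b
    exact congrArg (hm L) (a.trans (congrArg (Quot.mk _) b.symm))

theorem push_bd {Z Z' : Type 1} [TopologicalSpace Z] [TopologicalSpace Z'] {k : ℕ} (f : C(Z, Z'))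
    (z : Chain (k + 1) Z) : push f (bd k z) = bd k (push f z) := by
  induction z using Finsupp.induction_linear with
  | zero => simp
  | add a b ha hb => simp only [map_add, ha, hb]
  | single σ r =>
    simp only [push, bd, Finsupp.lmapDomain_apply, Finsupp.mapDomain_single,
      Finsupp.linearCombination_single, map_smul, map_sum, ContinuousMap.comp_assoc]

theorem van_of {ι : Type} [Fintype ι] {a : ι → ℚ} {h : ι → (E × Bool) ⊕ L → V}
    (H : P273SZ.VanishesH m a h) : VanishesH m a h := by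
  obtain ⟨c, ξ, z, B, h1, h2⟩ := H
  refine ⟨c, fun i => (hm L : C(_, _)).comp (ξ i), z, push (hm L : C(_, _)) B, fun i =>
    ⟨fun ξ' => ?_, (h1 i).2⟩, ?_⟩
  · obtain ⟨η, rfl⟩ : ∃ η : C(P273SZ.N (h i), P273SZ.Coarse L), ξ' = (hm L : C(_, _)).comp η :=
      ⟨((hm L).symm : C(_, _)).comp ξ', ContinuousMap.ext fun x => ((hm L).apply_symm_apply _).symm⟩
    exact (glu_iff _ η).trans (((h1 i).1 η).trans ⟨fun e => e ▸ rfl, fun e =>
      ContinuousMap.ext fun x => (hm L).injective (DFunLike.congr_fun e x)⟩)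
  · have := congrArg (push (hm L : C(P273SZ.Coarse L, Coarse L))) h2
    rw [map_sum] at this
    refine Eq.trans (Finset.sum_congr rfl fun i _ => ?_) (this.trans (push_bd _ B))
    rw [map_smul]
    exact congrArg _ (Finsupp.mapDomain_comp (f := (ξ i).comp)
      (g := (hm L : C(P273SZ.Coarse L, Coarse L)).comp))

theorem vanishes : VanishesH 8 H503.xa H503.xh := van_of P273SZ.vanishes

end Vale.Agent.P273SQ

end
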